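import Vale.Agent.P274.Full.Stmts
import Mathlib.Analysis.Complex.Schwarz
import Mathlib.Topology.Algebra.MvPolynomial

/-!
Holomorphic maps into a bounded cocompact domain with one value in a compact set have values in
compact sets: one step by the Schwarz lemma, then chains in a connected source.
-/

open Filter Metric Set Function Topology

namespace Vale.Agent.P274.Full

variable {E F G : Type*} [NormedAddCommGroup E] [NormedSpace ℂ E] [NormedAddCommGroup F]
  [NormedSpace ℂ F] [NormedAddCommGroup G] [NormedSpace ℂ G]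

theorem HolOn.continuousOn {f : E → F} {U : Set E} (hf : HolOn f U) : ContinuousOn f U := by
  intro x hx
  obtain ⟨W, g, hW, hxW, hg, heq⟩ := hf x hx
  have hgc : ContinuousWithinAt g U x :=
    (hg.continuousOn.continuousAt (hW.mem_nhds hxW)).continuousWithinAt
  refine hgc.congr_of_eventuallyEq ?_ (heq ⟨hxW, hx⟩)
  filter_upwards [self_mem_nhdsWithin, mem_nhdsWithin_of_mem_nhds (hW.mem_nhds hxW)] with y hy hy'
  exact heq ⟨hy', hy⟩

theorem HolOn.comp_differentiableOn {f : E → F} {U : Set E} (hf : HolOn f U) {φ : G → E}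
    {O : Set G} (hO : IsOpen O) (hφ : DifferentiableOn ℂ φ O) (hm : MapsTo φ O U) :
    DifferentiableOn ℂ (f ∘ φ) O := by
  intro x hx
  obtain ⟨W, g, hW, hxW, hg, heq⟩ := hf (φ x) (hm hx)
  have hφx : DifferentiableAt ℂ φ x := hφ.differentiableAt (hO.mem_nhds hx)
  have hgx : DifferentiableAt ℂ g (φ x) := hg.differentiableAt (hW.mem_nhds hxW)
  refine ((hgx.comp x hφx).congr_of_eventuallyEq ?_).differentiableWithinAt
  filter_upwards [hφx.continuousAt.preimage_mem_nhds (hW.mem_nhds hxW), hO.mem_nhds hx]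
    with y hy hy'
  exact heq ⟨hy, hm hy'⟩

namespace CDom

variable {N : ℕ} (D : CDom N)

theorem isClosed_Z : IsClosed D.Z := by
  rw [D.Z_eq]
  have h : ∀ p : MvPolynomial (Fin N) ℂ,
      IsClosed {z : Cn N | MvPolynomial.eval (fun i => z i) p = 0} := fun p =>
    isClosed_eq ((MvPolynomial.continuous_eval p).comp (by fun_prop)) continuous_const
  have : {z : Cn N | ∀ p ∈ D.eqs, MvPolynomial.eval (fun i => z i) p = 0}
      = ⋂ p ∈ D.eqs, {z : Cn N | MvPolynomial.eval (fun i => z i) p = 0} := by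
    ext z; simp
  rw [this]
  exact isClosed_biInter fun p _ => h p

theorem mem_U_iff {z : Cn N} : z ∈ D.U ↔ z ∈ D.Z ∧ z ∈ D.O := by
  rw [D.U_eq, mem_inter_iff]

/-- A compact neighbourhood of the fundamental set inside `U`. -/
theorem exists_thickening :
    ∃ ρ > 0, IsCompact (cthickening ρ D.K ∩ D.U) := by
  obtain ⟨ρ, hρ, hsub⟩ := D.compact_K.exists_cthickening_subset_open D.isOpen_O
    fun z hz => (D.mem_U_iff.1 (D.K_subset hz)).2
  refine ⟨ρ, hρ, ?_⟩
  have : cthickening ρ D.K ∩ D.U = cthickening ρ D.K ∩ D.Z := by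
    ext z
    simp only [mem_inter_iff, D.mem_U_iff]
    exact ⟨fun h => ⟨h.1, h.2.1⟩, fun h => ⟨h.1, h.2, hsub h.1⟩⟩
  rw [this]
  exact D.compact_K.cthickening.inter_right D.isClosed_Z

/-- One step: a fixed fraction of a ball is mapped into a compact set. -/
theorem taut_step : ∃ δ : ℝ, 0 < δ ∧ δ < 1 ∧ ∀ L : Set (Cn N), IsCompact L → L ⊆ D.U →
    ∃ L' : Set (Cn N), IsCompact L' ∧ L' ⊆ D.U ∧ ∀ (n : ℕ) (c : Cn n) (R : ℝ), 0 < R →
      ∀ φ : Cn n → Cn N, DifferentiableOn ℂ φ (ball c R) → MapsTo φ (ball c R) D.U → φ c ∈ L →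
        MapsTo φ (closedBall c (δ * R)) L' := by
  obtain ⟨ρ, hρ, hK'⟩ := D.exists_thickening
  obtain ⟨M, hM⟩ := D.bounded_U.exists_norm_le
  set M' := max M 0 + 1 with hM'
  have hM'0 : 0 < M' := by positivity
  refine ⟨min (1 / 2) (ρ / (2 * M')), by positivity, lt_of_le_of_lt (min_le_left _ _) (by norm_num),
    fun L hL hLU => ?_⟩
  refine ⟨⋃ g ∈ {g | ∃ z ∈ L, D.act g z ∈ D.K}, D.back g '' (cthickening ρ D.K ∩ D.U), ?_, ?_, ?_⟩
  · exact (D.finite L D.K hL D.compact_K hLU D.K_subset).isCompact_biUnion fun g _ =>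
      hK'.image_of_continuousOn ((D.hol_back g).continuousOn.mono inter_subset_right)
  · exact iUnion₂_subset fun g _ => image_subset_iff.2 fun z hz => D.maps_back g hz.2
  intro n c R hR φ hφ hm hc w hw
  set δ := min (1 / 2) (ρ / (2 * M'))
  have hwb : w ∈ ball c R := by
    refine mem_ball.2 (lt_of_le_of_lt (mem_closedBall.1 hw) ?_)
    calc δ * R ≤ 1 / 2 * R := by gcongr; exact min_le_left _ _
      _ < R := by linarith
  obtain ⟨g, hg⟩ := D.cover (φ c) (hm (mem_ball_self hR))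
  have hd : DifferentiableOn ℂ (D.act g ∘ φ) (ball c R) :=
    (D.hol g).comp_differentiableOn isOpen_ball hφ hm
  have hmaps : MapsTo (D.act g ∘ φ) (ball c R) (closedBall ((D.act g ∘ φ) c) (2 * M')) := by
    intro z hz
    rw [mem_closedBall, dist_eq_norm]
    have h1 := hM _ (D.maps g (hm hz))
    have h2 := hM _ (D.maps g (hm (mem_ball_self hR)))
    exact (norm_sub_le _ _).trans (by
      simp only [comp_apply]; linarith [le_max_left M 0])
  have hdist := Complex.dist_le_div_mul_dist_of_mapsTo_ball hd hmaps hwb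
  have hle : dist (D.act g (φ w)) (D.act g (φ c)) ≤ ρ := by
    refine hdist.trans ?_
    calc 2 * M' / R * dist w c ≤ 2 * M' / R * (ρ / (2 * M') * R) := by
          gcongr
          exact (mem_closedBall.1 hw).trans (by gcongr; exact min_le_right _ _)
      _ = ρ := by field_simp
  refine mem_biUnion (show g ∈ _ from ⟨φ c, hc, hg⟩) ⟨D.act g (φ w), ⟨?_, D.maps g (hm hwb)⟩, ?_⟩
  · exact mem_cthickening_of_dist_le _ _ _ _ hg hle
  · exact D.back_act g _ (hm hwb)

end CDom

/-- Holomorphic maps into `U` with one value in a compact set have values in compact sets. -/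
theorem taut : TautStmt := by
  intro N D n O S a L hO hconn hS hSO ha hL hLU
  obtain ⟨δ, hδ0, hδ1, hstep⟩ := D.taut_step
  set Fam : (Cn n → Cn N) → Prop :=
    fun φ => DifferentiableOn ℂ φ O ∧ MapsTo φ O D.U ∧ φ a ∈ L
  set A : Set (Cn n) := {c | ∃ W ∈ 𝓝 c, ∃ L' : Set (Cn N), IsCompact L' ∧ L' ⊆ D.U ∧
    ∀ φ, Fam φ → MapsTo φ W L'} with hA
  have hAo : IsOpen A := by
    rw [isOpen_iff_mem_nhds]
    rintro c ⟨W, hW, L', h⟩
    obtain ⟨V, hVW, hVo, hcV⟩ := _root_.mem_nhds_iff.1 hW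
    exact mem_of_superset (hVo.mem_nhds hcV) fun z hz =>
      ⟨W, mem_of_superset (hVo.mem_nhds hz) hVW, L', h⟩
  have haA : a ∈ A := by
    obtain ⟨R, hR, hsub⟩ := Metric.isOpen_iff.1 hO a ha
    obtain ⟨L', hc', hsub', hmaps⟩ := hstep L hL hLU
    exact ⟨closedBall a (δ * R), closedBall_mem_nhds _ (by positivity), L', hc', hsub',
      fun φ hφ => hmaps n a R hR φ (hφ.1.mono hsub) (hφ.2.1.mono_left hsub) hφ.2.2⟩
  have hclosed : closure A ∩ O ⊆ A := by
    rintro c ⟨hcA, hcO⟩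
    obtain ⟨R, hR, hsub⟩ := Metric.isOpen_iff.1 hO c hcO
    obtain ⟨c', hc'A, hdist⟩ := Metric.mem_closure_iff.1 hcA (δ * R / 4) (by positivity)
    obtain ⟨W, hW, L₀, hL₀, hL₀U, hmaps₀⟩ := hc'A
    obtain ⟨L', hcL', hsub', hmaps⟩ := hstep L₀ hL₀ hL₀U
    have hball : ball c' (R / 2) ⊆ O := by
      refine (ball_subset_ball' ?_).trans hsub
      rw [dist_comm]
      nlinarith
    refine ⟨closedBall c' (δ * (R / 2)), ?_, L', hcL', hsub', fun φ hφ => hmaps n c' (R / 2)
      (by positivity) φ (hφ.1.mono hball) (hφ.2.1.mono_left hball) (hmaps₀ φ hφ (mem_of_mem_nhds hW))⟩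
    refine mem_of_superset (closedBall_mem_nhds c (show 0 < δ * R / 4 by positivity)) ?_
    refine closedBall_subset_closedBall' ?_
    linarith
  have hOA : O ⊆ A := hconn.subset_of_closure_inter_subset hAo ⟨a, ha, haA⟩ hclosed
  have hcov : ∀ c ∈ S, ∃ W ∈ 𝓝 c, ∃ L' : Set (Cn N), IsCompact L' ∧ L' ⊆ D.U ∧
      ∀ φ, Fam φ → MapsTo φ W L' := fun c hc => hOA (hSO hc)
  choose! W hW L' hL'c hL'U hmaps using hcov
  obtain ⟨t, ht, hcover⟩ := hS.elim_nhds_subcover W hW
  refine ⟨⋃ c ∈ t, L' c, t.isCompact_biUnion fun c hc => hL'c c (ht c hc),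
    iUnion₂_subset fun c hc => hL'U c (ht c hc), fun φ h1 h2 h3 z hz => ?_⟩
  obtain ⟨c, hc, hzc⟩ := mem_iUnion₂.1 (hcover hz)
  exact mem_biUnion hc (hmaps c (ht c hc) φ ⟨h1, h2, h3⟩ hzc)

end Vale.Agent.P274.Full
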