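import Vale.Agent.P274.Full.Taut.Disc
import Mathlib.Analysis.Convex.PathConnected

/-!
Bochner's corner lemma by parabolic curves: a taut tube over an open set containing two segments
with a common end contains their convex hull.
-/

open Filter Metric Set Function Topology

namespace Vale.Agent.P274.Full

variable {m k : ℕ}

/-- The margin of `ζ` in the parabolic region of height `c`. -/
private def mg (α c : ℝ) (ζ : ℂ) : ℝ := c + α * (ζ.im ^ 2 - ζ.re ^ 2) - |ζ.im|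

/-- The parabolic curve over the corner `v, a, b`. -/
private noncomputable def curve (m : ℕ) (v a b : Rn k) (α c : ℝ) (ζ : ℂ) : Mod m k :=
  (0, WithLp.toLp 2 fun i => Complex.I * (v i : ℂ)
    + (Complex.I * ((c : ℂ) - (α : ℂ) * ζ ^ 2) + ζ) / 2 * (a i : ℂ)
    + (Complex.I * ((c : ℂ) - (α : ℂ) * ζ ^ 2) - ζ) / 2 * (b i : ℂ))

private lemma curve_mem {H : Cn m →L[ℝ] Cn m →L[ℝ] Rn k} {C : Set (Rn k)} {v a b : Rn k}
    {α c : ℝ} {ζ : ℂ} :
    curve m v a b α c ζ ∈ {p : Mod m k | iv p.2 - H p.1 p.1 ∈ C} ↔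
      v + ((c + α * (ζ.im ^ 2 - ζ.re ^ 2) + ζ.im) / 2) • a
        + ((c + α * (ζ.im ^ 2 - ζ.re ^ 2) - ζ.im) / 2) • b ∈ C := by
  have : iv (curve m v a b α c ζ).2 - H (curve m v a b α c ζ).1 (curve m v a b α c ζ).1
      = v + ((c + α * (ζ.im ^ 2 - ζ.re ^ 2) + ζ.im) / 2) • a
        + ((c + α * (ζ.im ^ 2 - ζ.re ^ 2) - ζ.im) / 2) • b := by
    ext i
    simp [curve, iv, sq]
    ring
  rw [mem_ofPred_eq, this]

private lemma continuous_curve (v a b : Rn k) (α : ℝ) :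
    Continuous fun q : ℝ × ℂ => curve m v a b α q.1 q.2 := by
  unfold curve
  fun_prop

private lemma continuous_curve_left (v a b : Rn k) (α : ℝ) (ζ : ℂ) :
    Continuous fun x : ℝ => curve m v a b α x ζ := by
  unfold curve
  fun_prop

private lemma continuous_curve_line (v a b : Rn k) (α : ℝ) :
    Continuous fun q : ℝ × ℝ => curve m v a b α q.1 (q.2 * Complex.I) := by
  unfold curve
  fun_prop

private lemma differentiable_curve (v a b : Rn k) (α c : ℝ) :
    Differentiable ℂ (curve m v a b α c) := by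
  unfold curve
  refine (differentiable_const _).prodMk ?_
  refine (PiLp.continuousLinearEquiv 2 ℂ fun _ : Fin k => ℂ).symm.differentiable.comp
    (differentiable_pi.2 fun i => ?_)
  fun_prop

private lemma bounds {α c : ℝ} {ζ : ℂ} (hα : 0 ≤ α) (hαc : α + c < 1) (h1 : |ζ.im| ≤ 1)
    (hm : 0 ≤ mg α c ζ) :
    |ζ.im| < 1 ∧ c + α * (ζ.im ^ 2 - ζ.re ^ 2) < 1 ∧ α * ζ.re ^ 2 ≤ 1 := by
  have h : ζ.im ^ 2 ≤ 1 := by
    rw [← sq_abs]; exact pow_le_one₀ (abs_nonneg _) h1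
  have h2 : α * ζ.im ^ 2 ≤ α * 1 := mul_le_mul_of_nonneg_left h hα
  have h3 : 0 ≤ α * ζ.re ^ 2 := mul_nonneg hα (sq_nonneg _)
  unfold mg at hm
  have h4 := abs_nonneg ζ.im
  refine ⟨?_, ?_, ?_⟩ <;> linarith

private lemma mg_smul {α c t : ℝ} {ζ : ℂ} (hα : 0 ≤ α) (hα2 : α ≤ 1 / 2) (h1 : |ζ.im| ≤ 1)
    (ht0 : 0 ≤ t) (ht1 : t ≤ 1) : mg α c ζ ≤ mg α c ((t : ℂ) * ζ) := by
  unfold mg
  have hre : ((t : ℂ) * ζ).re = t * ζ.re := by simp
  have him : ((t : ℂ) * ζ).im = t * ζ.im := by simp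
  rw [hre, him, abs_mul, abs_of_nonneg ht0]
  have ht2 : 0 ≤ 1 - t ^ 2 := sub_nonneg.2 (pow_le_one₀ ht0 ht1)
  have h5 : α * (1 + t) * |ζ.im| ≤ 1 := by
    have : α * (1 + t) ≤ 1 := by nlinarith
    nlinarith [mul_le_mul this h1 (abs_nonneg _) zero_le_one]
  have h6 := mul_nonneg (mul_nonneg (sub_nonneg.2 ht1) (abs_nonneg ζ.im)) (sub_nonneg.2 h5)
  have h7 : 0 ≤ α * ζ.re ^ 2 * (1 - t ^ 2) := mul_nonneg (mul_nonneg hα (sq_nonneg _)) ht2
  have h8 : α * (1 - t ^ 2) * ζ.im ^ 2 = α * (1 - t ^ 2) * (|ζ.im| * |ζ.im|) := by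
    rw [abs_mul_abs_self]; ring
  linear_combination h6 + h7 + h8

/-- The parameters for which the whole parabolic region is mapped into the tube. -/
private def Good (m : ℕ) (V : Set (Mod m k)) (v a b : Rn k) (α cs : ℝ) : Set ℝ :=
  {c : ℝ | c ∈ Icc 0 cs ∧ ∀ ζ : ℂ, |ζ.im| ≤ 1 → 0 ≤ mg α c ζ → curve m v a b α c ζ ∈ V}

private lemma continuous_mg (α : ℝ) : Continuous fun q : ℝ × ℂ => mg α q.1 q.2 := by
  unfold mg; fun_prop

private lemma good_open {V : Set (Mod m k)} (hV : IsOpen V) {v a b : Rn k} {α cs : ℝ}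
    (hα0 : 0 < α) (hαc : ∀ c ∈ Icc 0 cs, α + c < 1) :
    ∀ c ∈ Good m V v a b α cs, ∀ᶠ x in 𝓝 c, x ∈ Icc 0 cs → x ∈ Good m V v a b α cs := by
  set F := curve m v a b α with hF
  have hFc : Continuous fun q : ℝ × ℂ => F q.1 q.2 := continuous_curve v a b α
  have hmgc := continuous_mg α
  intro c hc
  set R := Real.sqrt (1 / α) + 1
  set Bad := {q : ℝ × ℂ | q.1 ∈ Icc 0 cs ∧ |q.2.im| ≤ 1 ∧ 0 ≤ mg α q.1 q.2 ∧ F q.1 q.2 ∉ V}
  have hBc : IsClosed Bad := by
    simp only [Bad, ofPred_and]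
    exact (isClosed_Icc.preimage continuous_fst).inter
      ((isClosed_le (by fun_prop) continuous_const).inter
        ((isClosed_le continuous_const hmgc).inter (hV.isClosed_compl.preimage hFc)))
  have hBb : Bad ⊆ Icc 0 cs ×ˢ closedBall (0 : ℂ) (R + 1) := by
    rintro ⟨x, ζ⟩ ⟨h1, h2, h3, -⟩
    refine ⟨h1, mem_closedBall_zero_iff.2 ((Complex.norm_le_abs_re_add_abs_im ζ).trans
      (add_le_add ?_ h2))⟩
    have h4 := (bounds hα0.le (hαc x h1) h2 h3).2.2
    calc |ζ.re| = Real.sqrt (ζ.re ^ 2) := (Real.sqrt_sq_eq_abs _).symm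
      _ ≤ Real.sqrt (1 / α) := Real.sqrt_le_sqrt (by rw [le_div_iff₀ hα0]; linarith)
      _ ≤ R := by simp [R]
  have hcomp : IsCompact (Prod.fst '' Bad) :=
    ((isCompact_Icc.prod (isCompact_closedBall _ _)).of_isClosed_subset hBc hBb).image
      continuous_fst
  have hnot : c ∉ Prod.fst '' Bad := by
    rintro ⟨⟨x, ζ⟩, ⟨-, h2, h3, h4⟩, rfl⟩
    exact h4 (hc.2 ζ h2 h3)
  filter_upwards [hcomp.isClosed.isOpen_compl.mem_nhds hnot] with x hx hxI
  refine ⟨hxI, fun ζ h2 h3 => ?_⟩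
  by_contra h4
  exact hx ⟨(x, ζ), ⟨hxI, h2, h3, h4⟩, rfl⟩

/-- Interior points of the region at a limit parameter. -/
private lemma good_interior {H : Cn m →L[ℝ] Cn m →L[ℝ] Rn k} {C : Set (Rn k)}
    (T : TDom (Mod m k)) (hT : T.V = {p | iv p.2 - H p.1 p.1 ∈ C}) {v a b : Rn k}
    (ha : ∀ t ∈ Icc (0 : ℝ) 1, v + t • a ∈ C) {α cs : ℝ} (hα0 : 0 < α) (hα2 : α ≤ 1 / 2)
    (hαc : ∀ c ∈ Icc 0 cs, α + c < 1) {c : ℝ} (hc : c ∈ closure (Good m T.V v a b α cs))
    (hcI : c ∈ Icc 0 cs) {ζ : ℂ} (h1 : |ζ.im| ≤ 1) (hlt : |ζ.im| < 1) (hpos : 0 < mg α c ζ) :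
    curve m v a b α c ζ ∈ T.V := by
  have hmgc := continuous_mg α
  set P := Good m T.V v a b α cs with hP
  -- a base point near the boundary
  obtain ⟨y₀, hy₀, hy₀h⟩ : ∃ y ∈ Icc (0 : ℝ) 1, c + α * y ^ 2 - y = 0 := by
    refine intermediate_value_Icc' zero_le_one (f := fun y : ℝ => c + α * y ^ 2 - y)
      (by fun_prop) ⟨?_, ?_⟩
    · simp only [one_pow]; linarith [hαc c hcI]
    · simpa using hcI.1
  have hc0 : 0 < c := by
    rcases hcI.1.lt_or_eq with h | h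
    · exact h
    · exfalso
      unfold mg at hpos
      rw [← h] at hpos
      nlinarith [abs_nonneg ζ.im, sq_abs ζ.im, sq_nonneg ζ.re,
        mul_le_mul_of_nonneg_left h1 (abs_nonneg ζ.im)]
  have hy₀pos : 0 < y₀ := by
    rcases hy₀.1.lt_or_eq with h | h
    · exact h
    · subst h; linarith
  have hbase : curve m v a b α c (y₀ * Complex.I) ∈ T.V := by
    simp only [hT, curve_mem]
    have him : ((y₀ : ℂ) * Complex.I).im = y₀ := by simp
    have hre : ((y₀ : ℂ) * Complex.I).re = 0 := by simp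
    rw [him, hre, show c + α * (y₀ ^ 2 - 0 ^ 2) = y₀ by linarith, sub_self, zero_div, zero_smul,
      add_zero, show (y₀ + y₀) / 2 = y₀ by ring]
    exact ha _ hy₀
  have hnb : (fun q : ℝ × ℝ => curve m v a b α q.1 (q.2 * Complex.I)) ⁻¹' T.V ∈ 𝓝 (c, y₀) :=
    (continuous_curve_line v a b α).continuousAt.preimage_mem_nhds (T.isOpen_V.mem_nhds hbase)
  obtain ⟨η, hη, hηV⟩ := Metric.mem_nhds_iff.1 hnb
  set y₁ := max (y₀ / 2) (y₀ - η / 2) with hy₁
  have hy₁0 : 0 < y₁ := lt_max_of_lt_left (half_pos hy₀pos)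
  have hy₁1 : y₁ < y₀ := max_lt (half_lt_self hy₀pos) (by linarith)
  have hy₁d : dist y₁ y₀ < η := by
    rw [Real.dist_eq, abs_lt]
    constructor <;> linarith [le_max_right (y₀ / 2) (y₀ - η / 2)]
  have hh : 0 < c + α * y₁ ^ 2 - y₁ := by
    have h5 : α * (y₁ + y₀) < 1 := by nlinarith [hy₀.2]
    have h6 := mul_pos (sub_pos.2 hy₁1) (sub_pos.2 h5)
    nlinarith
  set δ := min (min (c + α * y₁ ^ 2 - y₁) (mg α c ζ)) (η / 2) / 2 with hδ
  have hδ0 : 0 < δ := half_pos (lt_min (lt_min hh hpos) (half_pos hη))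
  have hδ1 : δ < c + α * y₁ ^ 2 - y₁ := by
    rw [hδ]; linarith [min_le_left (min (c + α * y₁ ^ 2 - y₁) (mg α c ζ)) (η / 2),
      min_le_left (c + α * y₁ ^ 2 - y₁) (mg α c ζ)]
  have hδ2 : δ < mg α c ζ := by
    rw [hδ]; linarith [min_le_left (min (c + α * y₁ ^ 2 - y₁) (mg α c ζ)) (η / 2),
      min_le_right (c + α * y₁ ^ 2 - y₁) (mg α c ζ)]
  have hδ3 : δ < η := by
    rw [hδ]; linarith [min_le_right (min (c + α * y₁ ^ 2 - y₁) (mg α c ζ)) (η / 2)]
  set co : Cn 1 →L[ℂ] ℂ := EuclideanSpace.proj (0 : Fin 1) with hco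
  set O := {x : Cn 1 | |(co x).im| < 1 ∧ 0 < mg α (c - δ) (co x)} with hO
  have hOo : IsOpen O := by
    simp only [O, ofPred_and]
    refine (isOpen_lt (by fun_prop) continuous_const).inter (isOpen_lt continuous_const ?_)
    exact hmgc.comp (continuous_const.prodMk co.continuous)
  set emb : ℂ → Cn 1 := fun z => WithLp.toLp 2 fun _ => z with hemb
  have hcoemb : ∀ z, co (emb z) = z := fun z => rfl
  have haO : emb (y₁ * Complex.I) ∈ O := by
    have him : ((y₁ : ℂ) * Complex.I).im = y₁ := by simp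
    have hre : ((y₁ : ℂ) * Complex.I).re = 0 := by simp
    simp only [hO, mem_ofPred_eq, hcoemb, mg, him, hre, abs_of_pos hy₁0]
    exact ⟨hy₁1.trans_le hy₀.2, by linarith⟩
  have hζO : emb ζ ∈ O := by
    simp only [hO, mem_ofPred_eq, hcoemb]
    exact ⟨hlt, by unfold mg at hδ2 ⊢; linarith⟩
  have hzero : (0 : Cn 1) ∈ O := by
    have h5 := mg_smul (c := c - δ) (t := 0) hα0.le hα2 haO.1.le le_rfl zero_le_one
    simp only [hcoemb, Complex.ofReal_zero, zero_mul] at h5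
    refine ⟨by simp, ?_⟩
    rw [map_zero]
    exact haO.2.trans_le (by simpa [hcoemb] using h5)
  have hstar : StarConvex ℝ (0 : Cn 1) O := by
    rw [starConvex_zero_iff]
    intro x hx t ht0 ht1
    have e : co (t • x) = (t : ℂ) * co x := by
      simp [hco, Complex.real_smul]
    refine ⟨?_, ?_⟩
    · rw [e, Complex.im_ofReal_mul, abs_mul, abs_of_nonneg ht0]
      exact (mul_le_of_le_one_left (abs_nonneg _) ht1).trans_lt hx.1
    · rw [e]
      exact hx.2.trans_le (mg_smul hα0.le hα2 hx.1.le ht0 ht1)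
  have hOc : IsPreconnected O := (hstar.isPathConnected hzero).isConnected.isPreconnected
  set L := (fun x : ℝ => curve m v a b α x (y₁ * Complex.I)) '' Icc (c - δ) (c + δ) with hL
  have hLc : IsCompact L := isCompact_Icc.image
    (continuous_curve_left v a b α _)
  have hLV : L ⊆ T.V := by
    rintro - ⟨x, hx, rfl⟩
    have hball : (x, y₁) ∈ ball (c, y₀) η := by
      rw [mem_ball, Prod.dist_eq]
      exact max_lt (by rw [Real.dist_eq, abs_lt]; constructor <;> linarith [hx.1, hx.2]) hy₁d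
    have h5 := hηV hball
    rw [mem_preimage] at h5
    exact h5
  obtain ⟨L', hL'c, hL'V, hmaps⟩ := T.taut 1 O {emb ζ} (emb (y₁ * Complex.I)) L hOo hOc
    isCompact_singleton (singleton_subset_iff.2 hζO) haO hLc hLV
  have hin : ∀ x ∈ P ∩ Ioo (c - δ) (c + δ), curve m v a b α x ζ ∈ L' := by
    rintro x ⟨hx, hx1, hx2⟩
    have h5 := hmaps (curve m v a b α x ∘ co)
      ((differentiable_curve v a b α x).comp co.differentiable).differentiableOn
      (fun z hz => hx.2 _ hz.1.le (by have := hz.2; unfold mg at this ⊢; linarith))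
      ⟨x, ⟨hx1.le, hx2.le⟩, by simp [hcoemb]⟩ (mem_singleton (emb ζ))
    simpa [hcoemb] using h5
  refine hL'V (hL'c.isClosed.closure_subset ?_)
  have hcl : c ∈ closure (P ∩ Ioo (c - δ) (c + δ)) := by
    rw [inter_comm]
    exact isOpen_Ioo.inter_closure ⟨⟨by linarith, by linarith⟩, hc⟩
  have hct : ContinuousAt (fun x : ℝ => curve m v a b α x ζ) c :=
    (continuous_curve_left v a b α _).continuousAt
  exact closure_mono (by rintro - ⟨x, hx, rfl⟩; exact hin x hx)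
    (hct.continuousWithinAt.mem_closure_image hcl)

private lemma good_closed {H : Cn m →L[ℝ] Cn m →L[ℝ] Rn k} {C : Set (Rn k)}
    (T : TDom (Mod m k)) (hT : T.V = {p | iv p.2 - H p.1 p.1 ∈ C}) {v a b : Rn k}
    (ha : ∀ t ∈ Icc (0 : ℝ) 1, v + t • a ∈ C) (hb : ∀ t ∈ Icc (0 : ℝ) 1, v + t • b ∈ C)
    {α cs : ℝ} (hα0 : 0 < α) (hα2 : α ≤ 1 / 2) (hαc : ∀ c ∈ Icc 0 cs, α + c < 1) :
    closure (Good m T.V v a b α cs) ⊆ Good m T.V v a b α cs := by
  set F := curve m v a b α with hF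
  have hFc : Continuous fun q : ℝ × ℂ => F q.1 q.2 := continuous_curve v a b α
  have hmgc := continuous_mg α
  set P := Good m T.V v a b α cs with hP
  intro c hc
  have hcI : c ∈ Icc 0 cs := closure_minimal (fun x hx => hx.1) isClosed_Icc hc
  refine ⟨hcI, fun ζ h1 h0 => ?_⟩
  obtain ⟨hlt, hg1, -⟩ := bounds hα0.le (hαc c hcI) h1 h0
  rcases h0.lt_or_eq with hpos | hzero
  swap
  · simp only [hT, curve_mem]
    rcases le_total 0 ζ.im with hy | hy
    · have hz : c + α * (ζ.im ^ 2 - ζ.re ^ 2) = ζ.im := by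
        rw [mg, abs_of_nonneg hy] at hzero; linarith
      rw [hz, sub_self, zero_div, zero_smul, add_zero, show (ζ.im + ζ.im) / 2 = ζ.im by ring]
      exact ha _ ⟨hy, by rw [abs_of_nonneg hy] at h1; exact h1⟩
    · have hz : c + α * (ζ.im ^ 2 - ζ.re ^ 2) = -ζ.im := by
        rw [mg, abs_of_nonpos hy] at hzero; linarith
      rw [hz, neg_add_cancel, zero_div, zero_smul, add_zero,
        show (-ζ.im - ζ.im) / 2 = -ζ.im by ring]
      exact hb _ ⟨by linarith, by rw [abs_of_nonpos hy] at h1; exact h1⟩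
  exact good_interior T hT ha hα0 hα2 hαc hc hcI h1 hlt hpos

/-- The corner lemma. -/
theorem corner {H : Cn m →L[ℝ] Cn m →L[ℝ] Rn k} {C : Set (Rn k)} (T : TDom (Mod m k))
    (hT : T.V = {p | iv p.2 - H p.1 p.1 ∈ C}) {v a b : Rn k}
    (ha : ∀ t ∈ Icc (0 : ℝ) 1, v + t • a ∈ C) (hb : ∀ t ∈ Icc (0 : ℝ) 1, v + t • b ∈ C)
    {l μ : ℝ} (hl : 0 ≤ l) (hμ : 0 ≤ μ) (hlμ : l + μ < 1) : v + l • a + μ • b ∈ C := by
  set α := (1 - (l + μ)) / 2 with hα
  have hα0 : 0 < α := by rw [hα]; linarith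
  have hα2 : α ≤ 1 / 2 := by rw [hα]; linarith
  set cs := (l + μ) - α * (l - μ) ^ 2 with hcs
  have hcs0 : 0 ≤ cs := by
    have : (l - μ) ^ 2 ≤ l + μ := by nlinarith
    nlinarith
  have hcs1 : cs ≤ l + μ := by rw [hcs]; nlinarith [sq_nonneg (l - μ)]
  have hαc : ∀ c ∈ Icc 0 cs, α + c < 1 := fun c hc => by rw [hα]; linarith [hc.2]
  set F := curve m v a b α with hF
  have hFc : Continuous fun q : ℝ × ℂ => F q.1 q.2 := continuous_curve v a b α
  set P := Good m T.V v a b α cs with hP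
  have hopen := good_open (v := v) (a := a) (b := b) T.isOpen_V hα0 hαc
  have hclosed := good_closed T hT ha hb hα0 hα2 hαc
  -- the bottom of the family and conclusion
  have hP0 : (0 : ℝ) ∈ P := by
    refine ⟨⟨le_rfl, hcs0⟩, fun ζ h1 h0 => ?_⟩
    have h5 : |ζ.im| = 0 ∧ α * ζ.re ^ 2 = 0 := by
      unfold mg at h0
      have h6 : α * ζ.im ^ 2 ≤ 1 / 2 * |ζ.im| := by
        rw [← sq_abs, sq]
        nlinarith [mul_le_mul hα2 h1 (abs_nonneg _) (by norm_num : (0 : ℝ) ≤ 1 / 2),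
          abs_nonneg ζ.im]
      have h7 : 0 ≤ α * ζ.re ^ 2 := mul_nonneg hα0.le (sq_nonneg _)
      constructor <;> linarith [abs_nonneg ζ.im]
    simp only [hT, curve_mem]
    have him : ζ.im = 0 := abs_eq_zero.1 h5.1
    rw [him, show (0 : ℝ) + α * (0 ^ 2 - ζ.re ^ 2) = 0 by linarith [h5.2], add_zero, sub_zero,
      zero_div, zero_smul, zero_smul, add_zero, add_zero]
    simpa using ha 0 (left_mem_Icc.2 zero_le_one)
  have hall : Icc 0 cs ⊆ P := by
    have hcl : IsClosed (P ∩ Icc 0 cs) := by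
      rw [inter_eq_left.2 fun x hx => hx.1]
      exact isClosed_of_closure_subset hclosed
    refine hcl.Icc_subset_of_forall_mem_nhdsWithin hP0 ?_
    rintro x ⟨hx, hxI⟩
    filter_upwards [mem_nhdsWithin_of_mem_nhds (hopen x hx), Ioo_mem_nhdsGT hxI.2] with y hy hy'
    exact hy ⟨hxI.1.trans hy'.1.le, hy'.2.le⟩
  have hfin := (hall (right_mem_Icc.2 hcs0)).2 (((l - μ : ℝ) : ℂ) * Complex.I)
    (by simp only [Complex.mul_im, Complex.ofReal_re, Complex.ofReal_im, Complex.I_im,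
          Complex.I_re, mul_one, mul_zero, add_zero]
        rw [abs_le]; constructor <;> linarith)
    (by simp only [mg, Complex.mul_im, Complex.mul_re, Complex.ofReal_re, Complex.ofReal_im,
          Complex.I_im, Complex.I_re, mul_one, mul_zero, add_zero, sub_zero, zero_mul]
        rw [hcs]; ring_nf
        rw [sub_nonneg, abs_le]; constructor <;> linarith)
  simp only [hT, curve_mem] at hfin
  simp only [Complex.mul_im, Complex.mul_re, Complex.ofReal_re, Complex.ofReal_im, Complex.I_im,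
    Complex.I_re, mul_one, mul_zero, add_zero, sub_zero, zero_mul] at hfin
  rw [show (cs + α * ((l - μ) ^ 2 - 0 ^ 2) + (l - μ)) / 2 = l by rw [hcs]; ring,
    show (cs + α * ((l - μ) ^ 2 - 0 ^ 2) - (l - μ)) / 2 = μ by rw [hcs]; ring] at hfin
  exact hfin

end Vale.Agent.P274.Full
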