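import Vale.Agent.P274.Full.Taut.Taut

/-!
The continuity principle for analytic discs.
-/

open Filter Metric Set Function Topology

namespace Vale.Agent.P274.Full

variable {E : Type*} [NormedAddCommGroup E] [NormedSpace ℂ E]

/-- A continuous family of discs with boundaries in a taut set stays in it. -/
theorem disc_principle {V Z O : Set E} (hZ : IsClosed Z) (hO : IsOpen O) (hV : V = Z ∩ O)
    (htaut : ∀ (n : ℕ) (O' S : Set (Cn n)) (a : Cn n) (L : Set E), IsOpen O' → IsPreconnected O' →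
      IsCompact S → S ⊆ O' → a ∈ O' → IsCompact L → L ⊆ V →
      ∃ L' : Set E, IsCompact L' ∧ L' ⊆ V ∧
        ∀ φ : Cn n → E, DifferentiableOn ℂ φ O' → MapsTo φ O' V → φ a ∈ L → MapsTo φ S L')
    {F : ℝ → ℂ → E} (hF : ContinuousOn (uncurry F) (Icc (0 : ℝ) 1 ×ˢ closedBall (0 : ℂ) 1))
    (hd : ∀ s ∈ Icc (0 : ℝ) 1, DifferentiableOn ℂ (F s) (ball 0 1))
    (hZm : ∀ s ∈ Icc (0 : ℝ) 1, MapsTo (F s) (closedBall 0 1) Z)
    (h0 : MapsTo (F 0) (closedBall 0 1) V) (hb : ∀ s ∈ Icc (0 : ℝ) 1, MapsTo (F s) (sphere 0 1) V) :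
    MapsTo (F 1) (closedBall 0 1) V := by
  obtain ⟨Q, hQo, hQ⟩ := (_root_.continuousOn_iff'.1 hF) O hO
  have hcQ : ∀ s ∈ Icc (0 : ℝ) 1, ∀ ζ ∈ closedBall (0 : ℂ) 1, (s, ζ) ∈ Q → F s ζ ∈ V := by
    intro s hs ζ hζ hq
    rw [hV]
    have h : (s, ζ) ∈ uncurry F ⁻¹' O ∩ (Icc (0 : ℝ) 1 ×ˢ closedBall (0 : ℂ) 1) := by
      rw [hQ]; exact ⟨hq, hs, hζ⟩
    exact ⟨hZm s hs hζ, h.1⟩
  have hQc : ∀ s ∈ Icc (0 : ℝ) 1, ∀ ζ ∈ closedBall (0 : ℂ) 1, F s ζ ∈ V → (s, ζ) ∈ Q := by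
    intro s hs ζ hζ h
    rw [hV] at h
    have h' : (s, ζ) ∈ uncurry F ⁻¹' O ∩ (Icc (0 : ℝ) 1 ×ˢ closedBall (0 : ℂ) 1) := ⟨h.2, hs, hζ⟩
    rw [hQ] at h'
    exact h'.1
  obtain ⟨u, v, -, hvo, hu, hv, huv⟩ := generalized_tube_lemma isCompact_Icc
    (isCompact_sphere (0 : ℂ) 1) hQo (fun p hp => hQc p.1 hp.1 p.2
      (sphere_subset_closedBall hp.2) (hb p.1 hp.1 hp.2))
  obtain ⟨ε, hε, hεv⟩ := (isCompact_sphere (0 : ℂ) 1).exists_cthickening_subset_open hvo hv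
  set r := max (1 / 2) (1 - ε) with hr
  have hr0 : 0 < r := lt_max_of_lt_left (by norm_num)
  have hr1 : r < 1 := max_lt (by norm_num) (by linarith)
  set Ann := closedBall (0 : ℂ) 1 \ ball 0 r with hAnn
  have hannv : Ann ⊆ v := by
    rintro ζ ⟨h1, h2⟩
    rw [mem_closedBall_zero_iff] at h1
    rw [mem_ball_zero_iff, not_lt] at h2
    have hn : 0 < ‖ζ‖ := hr0.trans_le h2
    apply hεv
    refine mem_cthickening_of_dist_le ζ (((‖ζ‖ : ℝ) : ℂ)⁻¹ * ζ) _ _ ?_ ?_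
    · rw [mem_sphere_zero_iff_norm, norm_mul, norm_inv, Complex.norm_real, norm_norm,
        inv_mul_cancel₀ hn.ne']
    · have : ζ - ((‖ζ‖ : ℝ) : ℂ)⁻¹ * ζ = ((1 - ‖ζ‖⁻¹ : ℝ) : ℂ) * ζ := by push_cast; ring
      rw [dist_eq_norm, this, norm_mul, Complex.norm_real, Real.norm_eq_abs, abs_of_nonpos
        (by linarith [one_le_inv_iff₀.2 ⟨hn, h1⟩])]
      have : ‖ζ‖⁻¹ * ‖ζ‖ = 1 := inv_mul_cancel₀ hn.ne'
      nlinarith [le_max_right (1 / 2 : ℝ) (1 - ε)]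
  have hannV : ∀ s ∈ Icc (0 : ℝ) 1, MapsTo (F s) Ann V := fun s hs ζ hζ =>
    hcQ s hs ζ hζ.1 (huv ⟨hu hs, hannv hζ⟩)
  -- openness in the parameter
  have hopen : ∀ s ∈ Icc (0 : ℝ) 1, MapsTo (F s) (closedBall 0 1) V →
      ∀ᶠ t in 𝓝 s, t ∈ Icc (0 : ℝ) 1 → MapsTo (F t) (closedBall 0 1) V := by
    intro s hs hsV
    obtain ⟨u', v', hu'o, -, hu', hv', huv'⟩ := generalized_tube_lemma isCompact_singleton
      (isCompact_closedBall (0 : ℂ) 1) hQo (s := {s}) (fun p hp => by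
        obtain ⟨rfl, hp2⟩ := hp
        exact hQc p.1 hs p.2 hp2 (hsV hp2))
    filter_upwards [hu'o.mem_nhds (hu' rfl)] with t ht htI ζ hζ
    exact hcQ t htI ζ hζ (huv' ⟨ht, hv' hζ⟩)
  -- closedness: the interior values stay in one compact set
  set co : Cn 1 →L[ℂ] ℂ := EuclideanSpace.proj (0 : Fin 1) with hco
  set emb : ℂ → Cn 1 := fun ζ => WithLp.toLp 2 fun _ => ζ with hemb
  have hcoemb : ∀ ζ, co (emb ζ) = ζ := fun ζ => rfl
  have hembc : Continuous emb := by fun_prop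
  have hnorm : ∀ x : Cn 1, ‖x‖ = ‖co x‖ := fun x => by
    rw [EuclideanSpace.norm_eq, Fin.sum_univ_one, Real.sqrt_sq (norm_nonneg _)]; rfl
  set L := (fun s => F s ((r : ℝ) : ℂ)) '' Icc (0 : ℝ) 1 with hL
  have hrann : ((r : ℝ) : ℂ) ∈ Ann := by
    have : ‖((r : ℝ) : ℂ)‖ = r := by rw [Complex.norm_real, Real.norm_of_nonneg hr0.le]
    exact ⟨by rw [mem_closedBall_zero_iff, this]; exact hr1.le,
      by rw [mem_ball_zero_iff, this]; exact lt_irrefl r⟩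
  have hLc : IsCompact L := isCompact_Icc.image_of_continuousOn
    (hF.comp (continuousOn_id.prodMk continuousOn_const) fun s hs => ⟨hs, hrann.1⟩)
  obtain ⟨L', hL'c, hL'V, hmaps⟩ := htaut 1 (ball 0 1) (closedBall 0 r) (emb r) L isOpen_ball
    (convex_ball _ _).isPreconnected (isCompact_closedBall _ _) (closedBall_subset_ball hr1)
    (by rw [mem_ball_zero_iff, hnorm, hcoemb, Complex.norm_real, Real.norm_of_nonneg hr0.le]
        exact hr1)
    hLc (fun _ ⟨s, hs, h⟩ => h ▸ hannV s hs hrann)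
  have hin : ∀ s ∈ Icc (0 : ℝ) 1, MapsTo (F s) (closedBall 0 1) V →
      MapsTo (F s) (closedBall 0 r) L' := by
    intro s hs hsV ζ hζ
    have := hmaps (F s ∘ co) ((hd s hs).comp co.differentiableOn fun x hx => by
        rw [mem_ball_zero_iff, ← hnorm]; exact mem_ball_zero_iff.1 hx)
      (fun x hx => hsV (mem_closedBall_zero_iff.2 (by
        rw [← hnorm]; exact (mem_ball_zero_iff.1 hx).le)))
      ⟨s, hs, by simp [hcoemb]⟩
      (show emb ζ ∈ closedBall 0 r from mem_closedBall_zero_iff.2 (by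
        rw [hnorm, hcoemb]; exact mem_closedBall_zero_iff.1 hζ))
    simpa [hcoemb] using this
  set T := {s : ℝ | s ∈ Icc (0 : ℝ) 1 ∧ MapsTo (F s) (closedBall 0 1) V} with hT
  have hsub : Icc (0 : ℝ) 1 ⊆ {s | s ∈ Icc (0 : ℝ) 1 → MapsTo (F s) (closedBall 0 1) V} := by
    have hcl : IsClosed (T ∩ Icc (0 : ℝ) 1) := by
      rw [inter_eq_left.2 fun s hs => hs.1]
      refine isClosed_of_closure_subset fun s hs => ?_
      have hsI : s ∈ Icc (0 : ℝ) 1 := closure_minimal (fun t ht => ht.1) isClosed_Icc hs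
      refine ⟨hsI, fun ζ hζ => ?_⟩
      by_cases hζr : ζ ∈ ball (0 : ℂ) r
      · refine hL'V (hL'c.isClosed.closure_subset ?_)
        have hct : ContinuousWithinAt (fun t => F t ζ) T s :=
          ((hF.comp (continuousOn_id.prodMk continuousOn_const) fun t ht => ⟨ht, hζ⟩) s hsI).mono
            fun t ht => ht.1
        refine closure_mono ?_ (hct.mem_closure_image hs)
        rintro - ⟨t, ht, rfl⟩
        exact hin t ht.1 ht.2 (ball_subset_closedBall hζr)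
      · exact hannV s hsI ⟨hζ, hζr⟩
    intro s hs _
    have := IsClosed.Icc_subset_of_forall_mem_nhdsWithin (a := (0 : ℝ)) (b := 1) (s := T) hcl
      ⟨left_mem_Icc.2 zero_le_one, h0⟩ ?_ hs
    · exact this.2
    rintro t ⟨ht, htI⟩
    have h1 := hopen t ht.1 ht.2
    filter_upwards [mem_nhdsWithin_of_mem_nhds h1,
      Ioo_mem_nhdsGT htI.2] with x hx hx'
    have hxI : x ∈ Icc (0 : ℝ) 1 := ⟨htI.1.trans hx'.1.le, hx'.2.le⟩
    exact ⟨hxI, hx hxI⟩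
  exact hsub (right_mem_Icc.2 zero_le_one) (right_mem_Icc.2 zero_le_one)

/-- The continuity principle. -/
theorem disc : DiscStmt := fun N D F hF hd hZ h0 hb =>
  disc_principle D.isClosed_Z D.isOpen_O D.U_eq (taut N D) hF hd hZ h0 hb

/-- The continuity principle in a taut open domain. -/
theorem TDom.disc {E : Type} [NormedAddCommGroup E] [NormedSpace ℂ E] (T : TDom E)
    {F : ℝ → ℂ → E} (hF : ContinuousOn (uncurry F) (Icc (0 : ℝ) 1 ×ˢ closedBall (0 : ℂ) 1))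
    (hd : ∀ s ∈ Icc (0 : ℝ) 1, DifferentiableOn ℂ (F s) (ball 0 1))
    (h0 : MapsTo (F 0) (closedBall 0 1) T.V)
    (hb : ∀ s ∈ Icc (0 : ℝ) 1, MapsTo (F s) (sphere 0 1) T.V) :
    MapsTo (F 1) (closedBall 0 1) T.V :=
  disc_principle isClosed_univ T.isOpen_V (univ_inter _).symm T.taut hF hd
    (fun _ _ _ _ => mem_univ _) h0 hb

end Vale.Agent.P274.Full
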