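import Vale.Agent.P274.Full.Taut.Corner

/-!
A taut tube over a connected open set is convex and stable under adding the form.
-/

open Filter Metric Set Function Topology

namespace Vale.Agent.P274.Full

variable {m k : ℕ}

private lemma exists_stretch {C : Set (Rn k)} (hC : IsOpen C) {x a : Rn k}
    (h : ∀ t ∈ Icc (0 : ℝ) 1, x + t • a ∈ C) :
    ∀ᶠ η in 𝓝 (0 : ℝ), ∀ t ∈ Icc (0 : ℝ) 1, x + t • ((1 + η) • a) ∈ C := by
  refine isCompact_Icc.eventually_forall_of_forall_eventually fun t ht => ?_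
  have : ContinuousAt (fun z : ℝ × ℝ => x + z.2 • ((1 + z.1) • a)) (0, t) := by fun_prop
  exact this.preimage_mem_nhds (hC.mem_nhds (by simpa using h t ht))

private lemma convex_of_corner {H : Cn m →L[ℝ] Cn m →L[ℝ] Rn k} {C : Set (Rn k)}
    (hC : IsOpen C) (hconn : IsPreconnected C) (T : TDom (Mod m k))
    (hT : T.V = {p | iv p.2 - H p.1 p.1 ∈ C}) : Convex ℝ C := by
  intro v hv w hw p q hp hq hpq
  set A := {z : Rn k | ∀ t ∈ Icc (0 : ℝ) 1, v + t • (z - v) ∈ C} with hA
  have hAo : IsOpen A := by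
    rw [isOpen_iff_mem_nhds]
    intro z hz
    refine isCompact_Icc.eventually_forall_of_forall_eventually
      (P := fun (y : Rn k) (t : ℝ) => v + t • (y - v) ∈ C) fun t ht => ?_
    have : ContinuousAt (fun y : Rn k × ℝ => v + y.2 • (y.1 - v)) (z, t) := by fun_prop
    exact this.preimage_mem_nhds (hC.mem_nhds (hz t ht))
  have hvA : v ∈ A := fun t _ => by simpa using hv
  have hclosed : closure A ∩ C ⊆ A := by
    rintro z ⟨hzA, hzC⟩
    obtain ⟨ε, hε, hball⟩ := Metric.isOpen_iff.1 hC z hzC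
    obtain ⟨z', hz', hd⟩ := Metric.mem_closure_iff.1 hzA ε hε
    have ha : ∀ t ∈ Icc (0 : ℝ) 1, z' + t • (v - z') ∈ C := by
      intro t ht
      have e : z' + t • (v - z') = v + (1 - t) • (z' - v) := by module
      rw [e]
      exact hz' _ ⟨by linarith [ht.2], by linarith [ht.1]⟩
    have hb : ∀ t ∈ Icc (0 : ℝ) 1, z' + t • (z - z') ∈ C := fun t ht =>
      hball ((convex_ball z ε).add_smul_sub_mem (mem_ball'.2 hd) (mem_ball_self hε) ht)
    obtain ⟨η, ⟨h1, h2⟩, hη⟩ := (((exists_stretch hC ha).and (exists_stretch hC hb)).filter_mono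
      nhdsWithin_le_nhds |>.and (self_mem_nhdsWithin : Ioi (0 : ℝ) ∈ 𝓝[>] 0)).exists
    intro t ht
    have h3 := corner T hT h1 h2 (l := (1 - t) / (1 + η)) (μ := t / (1 + η))
      (div_nonneg (by linarith [ht.2]) (by linarith)) (div_nonneg ht.1 (by linarith))
      (by rw [← add_div, div_lt_one (by linarith)]; linarith)
    rw [smul_smul, smul_smul, div_mul_cancel₀ _ (by linarith : (1 + η : ℝ) ≠ 0),
      div_mul_cancel₀ _ (by linarith : (1 + η : ℝ) ≠ 0)] at h3
    convert h3 using 1
    module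
  have hCA : C ⊆ A := hconn.subset_of_closure_inter_subset hAo ⟨v, hv, hvA⟩ hclosed
  have h := hCA hw q ⟨hq, by linarith⟩
  convert h using 1
  rw [show p = 1 - q by linarith]
  module

private lemma add_form {H : Cn m →L[ℝ] Cn m →L[ℝ] Rn k} (hs : ∀ a b, H a b = H b a)
    (hI : ∀ a b, H (Complex.I • a) (Complex.I • b) = H a b) {C : Set (Rn k)} (T : TDom (Mod m k))
    (hT : T.V = {p | iv p.2 - H p.1 p.1 ∈ C}) {v : Rn k} (hv : v ∈ C) (a : Cn m) :
    v + H a a ∈ C := by
  have hcross : H (Complex.I • a) a = 0 := by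
    have h := hI (Complex.I • a) a
    rw [smul_smul, Complex.I_mul_I, neg_one_smul, map_neg, neg_apply, hs a] at h
    ext i
    have h' := congrFun (congrArg (fun z : Rn k => (z : Fin k → ℝ)) h) i
    simp only [PiLp.neg_apply] at h'
    simp only [PiLp.zero_apply]
    linarith
  have hscale : ∀ c : ℂ, H (c • a) (c • a) = (‖c‖ ^ 2) • H a a := by
    intro c
    have e : c • a = c.re • a + c.im • (Complex.I • a) := by
      conv_lhs => rw [← Complex.re_add_im c]
      rw [add_smul, mul_smul, Complex.coe_smul, Complex.coe_smul]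
    rw [e, Complex.sq_norm, Complex.normSq_apply]
    simp only [map_add, map_smul, add_apply, smul_apply, hI, hcross, hs a (Complex.I • a),
      smul_zero, add_zero, zero_add, smul_smul, add_smul]
  set F : ℝ → ℂ → Mod m k := fun s ζ =>
    ((s : ℂ) • ζ • a, WithLp.toLp 2 fun i => Complex.I * (((v i + s ^ 2 * H a a i : ℝ)) : ℂ))
    with hF
  have hmem : ∀ s ζ, F s ζ ∈ T.V ↔ v + (s ^ 2 * (1 - ‖ζ‖ ^ 2)) • H a a ∈ C := by
    intro s ζ
    have e : iv (F s ζ).2 - H (F s ζ).1 (F s ζ).1 = v + (s ^ 2 * (1 - ‖ζ‖ ^ 2)) • H a a := by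
      simp only [hF, smul_smul, hscale, norm_mul, Complex.norm_real, Real.norm_eq_abs, mul_pow,
        sq_abs]
      ext i
      simp [iv, sq]
      ring
    rw [hT, mem_ofPred_eq, e]
  have hcont : Continuous (uncurry F) := by
    simp only [hF]
    fun_prop
  have hdiff : ∀ s, Differentiable ℂ (F s) := fun s => by
    simp only [hF]
    fun_prop
  have h := T.disc hcont.continuousOn (fun s _ => (hdiff s).differentiableOn)
    (fun ζ _ => (hmem 0 ζ).2 (by simpa using hv))
    (fun s _ ζ hζ => (hmem s ζ).2 (by rw [mem_sphere_zero_iff_norm.1 hζ]; simpa using hv))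
    (mem_closedBall_self zero_le_one)
  simpa using (hmem 1 0).1 h

/-- A taut tube over a cone is given by a convex cone, stable under adding the form. -/
theorem hull : HullStmt := fun _ _ _ hs hI _ hC hconn _ T hT =>
  ⟨convex_of_corner hC hconn.isPreconnected T hT, fun a _ hv => add_form hs hI T hT hv a⟩

end Vale.Agent.P274.Full
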